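import Vale.Agent.P153E.Sob

/-!
Uniform odd heights (integer Lipschitz functions) on the triangular lattice: convergence in law of
the height field in the space of distributions and in the negative Sobolev spaces, and of the
interface, in every marked Jordan domain, with the exact constants.
-/

namespace Vale.Agent.Results.P153.AADistribution

open Vale.Agent.P153E

/-- Every marked Jordan domain has lattice approximations; along all of them the centred heights
converge in law in `𝓓'(D)` and in `H^{-s}(D)`, `s > 1`, to `√(8/π) Φ_D`, the heights converge to
`u + √(8/π) Φ_D`, and the interface converges in law to chordal `SLE_4`; the heights in the whole
plane have the variance `(8/π²) log |x|` and converge to `√(8/π)` times the free field. -/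
theorem result : HasApprox ∧ DistLimit ∧ SobLimit ∧ CurveLimit ∧
    Vale.Agent.P153.H212.PlaneTheorem :=
  everything

end Vale.Agent.Results.P153.AADistribution
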